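import Mathlib

namespace Vale.Agent.Lib.P330

/-- Gates of a generalized circuit on the node type `V`. In every constructor the last
node is the output node `z`; the nodes before it are the input nodes `a`, `b`. -/
inductive Gate (V : Type) : Type
  | const (α : ℚ) (z : V)
  | scale (α : ℚ) (a z : V)
  | copy (a z : V)
  | add (a b z : V)
  | sub (a b z : V)
  | less (a b z : V)
  | neg (a z : V)
  | disj (a b z : V)
  | conj (a b z : V)

/-- The output node of a gate. -/
def Gate.out {V : Type} : Gate V → V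
  | .const _ z => z
  | .scale _ _ z => z
  | .copy _ z => z
  | .add _ _ z => z
  | .sub _ _ z => z
  | .less _ _ z => z
  | .neg _ z => z
  | .disj _ _ z => z
  | .conj _ _ z => z

/-- The gate parameter (if any) is a rational in `[0,1]`. -/
def Gate.ParamOK {V : Type} : Gate V → Prop
  | .const α _ => 0 ≤ α ∧ α ≤ 1
  | .scale α _ _ => 0 ≤ α ∧ α ≤ 1
  | _ => True

/-- `g.Sat ε x`: the gate `g` is `ε`-satisfied by the assignment `x`. -/
def Gate.Sat {V : Type} (ε : ℚ) (x : V → ℚ) : Gate V → Prop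
  | .const α z => |x z - α| ≤ ε
  | .scale α a z => |x z - α * x a| ≤ ε
  | .copy a z => |x z - x a| ≤ ε
  | .add a b z => |x z - min (x a + x b) 1| ≤ ε
  | .sub a b z => |x z - max (x a - x b) 0| ≤ ε
  | .less a b z => (x a < x b - ε → 1 - ε ≤ x z) ∧ (x b + ε < x a → x z ≤ ε)
  | .neg a z => (x a ≤ ε → 1 - ε ≤ x z) ∧ (1 - ε ≤ x a → x z ≤ ε)
  | .disj a b z => ((1 - ε ≤ x a ∨ 1 - ε ≤ x b) → 1 - ε ≤ x z) ∧ ((x a ≤ ε ∧ x b ≤ ε) → x z ≤ ε)
  | .conj a b z => ((1 - ε ≤ x a ∧ 1 - ε ≤ x b) → 1 - ε ≤ x z) ∧ ((x a ≤ ε ∨ x b ≤ ε) → x z ≤ ε)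

/-- A generalized circuit on the finite node set `V`: a nonempty finite set of gates,
each node being the output of at most one gate, gate parameters in `[0,1]`.
Directed cycles are allowed. -/
structure GCircuit (V : Type) [Fintype V] where
  gates : Finset (Gate V)
  nonempty : gates.Nonempty
  out_inj : ∀ g ∈ gates, ∀ h ∈ gates, g.out = h.out → g = h
  param_ok : ∀ g ∈ gates, g.ParamOK

end Vale.Agent.Lib.P330
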