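import Vale.Agent.Lib.P330.Defs

namespace Vale.Agent.Lib.P330

open Classical

/-- The zero assignment satisfies every gate that is neither a constant gate nor a negation gate. -/
theorem sat_zero {V : Type} (ε : ℚ) (hε : 0 < ε) (g : Gate V)
    (h1 : ∀ α z, g ≠ Gate.const α z) (h2 : ∀ a z, g ≠ Gate.neg a z) :
    g.Sat ε (fun _ => 0) := by
  cases g with
  | const α z => exact absurd rfl (h1 α z)
  | scale α a z => simp [Gate.Sat]; exact hε.le
  | copy a z => simp [Gate.Sat]; exact hε.le
  | add a b z => simp [Gate.Sat]; exact hε.le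
  | sub a b z => simp [Gate.Sat]; exact hε.le
  | less a b z =>
    refine ⟨fun h => ?_, fun h => ?_⟩
    · exfalso; linarith
    · exfalso; linarith
  | neg a z => exact absurd rfl (h2 a z)
  | disj a b z =>
    refine ⟨fun h => ?_, fun _ => hε.le⟩
    rcases h with h | h <;> exact h
  | conj a b z =>
    exact ⟨fun h => h.1, fun _ => hε.le⟩

variable {V : Type} [Fintype V]

/-- The value given to the output of a negation gate whose input has value `v`. -/
noncomputable def negVal (ε v : ℚ) : ℚ :=
  if v ≤ ε ∧ 1 - ε ≤ v then 1 / 2 else if v ≤ ε then 1 else 0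

theorem negVal_mem (ε v : ℚ) : negVal ε v = 0 ∨ negVal ε v = 1 / 2 ∨ negVal ε v = 1 := by
  unfold negVal
  split_ifs <;> simp

theorem negVal_spec (ε v : ℚ) (hε : 0 < ε) :
    (v ≤ ε → 1 - ε ≤ negVal ε v) ∧ (1 - ε ≤ v → negVal ε v ≤ ε) := by
  unfold negVal
  split_ifs with h1 h2
  · refine ⟨fun _ => ?_, fun _ => ?_⟩ <;> linarith [h1.1, h1.2]
  · refine ⟨fun _ => by linarith, fun h => ?_⟩
    exact absurd ⟨h2, h⟩ h1
  · exact ⟨fun h => absurd h h2, fun _ => hε.le⟩

/-- For every set `S` of negation gates of the circuit there is an assignment with values in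
`{0, 1/2, 1}` and constants of constant gates, satisfying exactly all constant gates and all
negation gates in `S`. -/
theorem exists_neg_const (G : GCircuit V) (ε : ℚ) (hε : 0 < ε) :
    ∀ S : Finset (V × V), (∀ p ∈ S, Gate.neg p.1 p.2 ∈ G.gates) →
      ∃ y : V → ℚ,
        (∀ α z, Gate.const α z ∈ G.gates → y z = α) ∧
        (∀ p ∈ S, (y p.1 ≤ ε → 1 - ε ≤ y p.2) ∧ (1 - ε ≤ y p.1 → y p.2 ≤ ε)) ∧
        (∀ v, y v = 0 ∨ y v = 1 / 2 ∨ y v = 1 ∨ ∃ α, Gate.const α v ∈ G.gates ∧ y v = α) := by
  intro S
  induction S using Finset.strongInduction with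
  | H S ih =>
    intro hS
    by_cases hA : ∃ p ∈ S, ∀ q ∈ S, q.1 ≠ p.2
    · obtain ⟨p, hp, hpq⟩ := hA
      obtain ⟨y', hy1, hy2, hy3⟩ := ih (S.erase p) (Finset.erase_ssubset hp)
        (fun q hq => hS q (Finset.mem_of_mem_erase hq))
      refine ⟨Function.update y' p.2 (negVal ε (y' p.1)), ?_, ?_, ?_⟩
      · intro α z hz
        have hne : z ≠ p.2 := by
          intro h
          have := G.out_inj _ hz _ (hS p hp) (by simpa [Gate.out] using h)
          cases this
        rw [Function.update_of_ne hne]
        exact hy1 α z hz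
      · intro q hq
        by_cases hqp : q = p
        · subst hqp
          have hne : q.1 ≠ q.2 := hpq q hq
          rw [Function.update_of_ne hne, Function.update_self]
          exact negVal_spec ε _ hε
        · have h1 : q.1 ≠ p.2 := hpq q hq
          have h2 : q.2 ≠ p.2 := by
            intro h
            have := G.out_inj _ (hS q hq) _ (hS p hp) (by simpa [Gate.out] using h)
            injection this with ha hz
            exact hqp (Prod.ext ha hz)
          rw [Function.update_of_ne h1, Function.update_of_ne h2]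
          exact hy2 q (Finset.mem_erase.mpr ⟨hqp, hq⟩)
      · intro v
        by_cases hv : v = p.2
        · subst hv
          rw [Function.update_self]
          rcases negVal_mem ε (y' p.1) with h | h | h
          · exact Or.inl h
          · exact Or.inr (Or.inl h)
          · exact Or.inr (Or.inr (Or.inl h))
        · rw [Function.update_of_ne hv]
          exact hy3 v
    · push Not at hA
      -- every output of a gate in S is an input of a gate in S; hence inputs = outputs
      have hsub : S.image Prod.snd ⊆ S.image Prod.fst := by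
        intro v hv
        obtain ⟨p, hp, rfl⟩ := Finset.mem_image.mp hv
        obtain ⟨q, hq, hqp⟩ := hA p hp
        exact Finset.mem_image.mpr ⟨q, hq, hqp⟩
      have hinj : Set.InjOn Prod.snd (S : Set (V × V)) := by
        intro p hp q hq h
        have := G.out_inj _ (hS p hp) _ (hS q hq) (by simpa [Gate.out] using h)
        injection this with ha hz
        exact Prod.ext ha hz
      have hcard : (S.image Prod.fst).card ≤ (S.image Prod.snd).card := by
        rw [Finset.card_image_of_injOn hinj]
        exact Finset.card_image_le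
      have heq : S.image Prod.snd = S.image Prod.fst := Finset.eq_of_subset_of_card_le hsub hcard
      refine ⟨fun v => if h : ∃ α, Gate.const α v ∈ G.gates then h.choose else 1 / 2, ?_, ?_, ?_⟩
      · intro α z hz
        have h : ∃ α, Gate.const α z ∈ G.gates := ⟨α, hz⟩
        simp only [dif_pos h]
        have := G.out_inj _ h.choose_spec _ hz (by simp [Gate.out])
        injection this
      · intro p hp
        have hout : ∀ q ∈ S, ¬ ∃ α, Gate.const α q.2 ∈ G.gates := by
          intro q hq ⟨α, hα⟩
          have := G.out_inj _ hα _ (hS q hq) (by simp [Gate.out])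
          cases this
        have h1 : ¬ ∃ α, Gate.const α p.1 ∈ G.gates := by
          have : p.1 ∈ S.image Prod.snd := by
            rw [heq]; exact Finset.mem_image_of_mem _ hp
          obtain ⟨q, hq, hqp⟩ := Finset.mem_image.mp this
          rw [← hqp]; exact hout q hq
        have h2 := hout p hp
        simp only [dif_neg h1, dif_neg h2]
        constructor <;> intro h <;> linarith
      · intro v
        by_cases h : ∃ α, Gate.const α v ∈ G.gates
        · simp only [dif_pos h]
          exact Or.inr (Or.inr (Or.inr ⟨h.choose, h.choose_spec, rfl⟩))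
        · right; left
          simp only [dif_neg h]

/-- Two-assignment cover: there is an assignment `y` with values in `{0, 1/2, 1}` or equal to
the constant of a constant gate at its output node, such that every gate of the circuit is
`ε`-satisfied by the zero assignment or by `y`. -/
theorem exists_cover (G : GCircuit V) (ε : ℚ) (hε : 0 < ε) :
    ∃ y : V → ℚ,
      (∀ v, y v = 0 ∨ y v = 1 / 2 ∨ y v = 1 ∨ ∃ α, Gate.const α v ∈ G.gates ∧ y v = α) ∧
      (∀ g ∈ G.gates, g.Sat ε (fun _ => 0) ∨ g.Sat ε y) := by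
  let S : Finset (V × V) := Finset.univ.filter (fun p => Gate.neg p.1 p.2 ∈ G.gates)
  obtain ⟨y, hy1, hy2, hy3⟩ := exists_neg_const G ε hε S
    (fun p hp => (Finset.mem_filter.mp hp).2)
  refine ⟨y, hy3, ?_⟩
  intro g hg
  by_cases h1 : ∃ α z, g = Gate.const α z
  · obtain ⟨α, z, rfl⟩ := h1
    right
    simp only [Gate.Sat]
    rw [hy1 α z hg]
    simp [hε.le]
  · by_cases h2 : ∃ a z, g = Gate.neg a z
    · obtain ⟨a, z, rfl⟩ := h2
      right
      exact hy2 (a, z) (Finset.mem_filter.mpr ⟨Finset.mem_univ _, hg⟩)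
    · left
      push Not at h1 h2
      exact sat_zero ε hε g h1 h2

theorem exists_half (G : GCircuit V) (ε : ℚ) (hε : 0 < ε) :
    ∃ y : V → ℚ,
      (∀ v, y v = 0 ∨ y v = 1 / 2 ∨ y v = 1 ∨ ∃ α, Gate.const α v ∈ G.gates ∧ y v = α) ∧
      (∀ g ∈ G.gates, g.Sat ε (fun _ => 0) ∨ g.Sat ε y) ∧
      (G.gates.card ≤ 2 * (G.gates.filter (fun g => g.Sat ε (fun _ => 0))).card ∨
        G.gates.card ≤ 2 * (G.gates.filter (fun g => g.Sat ε y)).card) := by
  obtain ⟨y, hy1, hy2⟩ := exists_cover G ε hε
  refine ⟨y, hy1, hy2, ?_⟩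
  have hsub : G.gates ⊆ G.gates.filter (fun g => g.Sat ε (fun _ => 0)) ∪
      G.gates.filter (fun g => g.Sat ε y) := by
    intro g hg
    rcases hy2 g hg with h | h
    · exact Finset.mem_union_left _ (Finset.mem_filter.mpr ⟨hg, h⟩)
    · exact Finset.mem_union_right _ (Finset.mem_filter.mpr ⟨hg, h⟩)
  have h1 := Finset.card_le_card hsub
  have h2 := Finset.card_union_le (G.gates.filter (fun g => g.Sat ε (fun _ => 0)))
    (G.gates.filter (fun g => g.Sat ε y))
  omega

end Vale.Agent.Lib.P330

namespace Vale.Agent.Lib.P330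

open Classical

theorem exists_half_unit {V : Type} [Fintype V] (G : GCircuit V) (ε : ℚ) (hε : 0 < ε) :
    ∃ y : V → ℚ,
      (∀ v, 0 ≤ y v ∧ y v ≤ 1) ∧
      (∀ v, y v = 0 ∨ y v = 1 / 2 ∨ y v = 1 ∨ ∃ α, Gate.const α v ∈ G.gates ∧ y v = α) ∧
      (∀ g ∈ G.gates, g.Sat ε (fun _ => 0) ∨ g.Sat ε y) ∧
      (G.gates.card ≤ 2 * (G.gates.filter (fun g => g.Sat ε (fun _ => 0))).card ∨
        G.gates.card ≤ 2 * (G.gates.filter (fun g => g.Sat ε y)).card) := by
  obtain ⟨y, hy1, hy2, hy3⟩ := exists_half G ε hε
  refine ⟨y, ?_, hy1, hy2, hy3⟩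
  intro v
  rcases hy1 v with h | h | h | ⟨α, hα, h⟩
  · rw [h]; norm_num
  · rw [h]; norm_num
  · rw [h]; norm_num
  · rw [h]
    exact G.param_ok _ hα

end Vale.Agent.Lib.P330
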