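import Vale.Agent.Lib.P330.Step

namespace Vale.Agent.Lib.P330

open Classical

variable {V : Type} [Fintype V]

theorem step_out (G : GCircuit V) (ε : ℚ) (x : V → ℚ) (g : Gate V) (hg : g ∈ G.gates) :
    G.step ε x g.out = g.val ε x := by
  unfold GCircuit.step
  have h : ∃ g', g' ∈ G.gates ∧ g'.out = g.out := ⟨g, hg, rfl⟩
  rw [dif_pos h]
  have := G.out_inj _ (Classical.choose_spec h).1 _ hg (Classical.choose_spec h).2
  rw [this]

omit [Fintype V] in
theorem val_mem (ε : ℚ) (h1 : 1 / 4 ≤ ε) (h2 : ε ≤ 1 / 2) (x : V → ℚ) (g : Gate V)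
    (hg : g.ParamOK) : ε ≤ g.val ε x ∧ g.val ε x ≤ 1 - ε := by
  cases g with
  | const α z =>
    simp only [Gate.val]
    refine ⟨le_max_left _ _, max_le (by linarith) (min_le_right _ _)⟩
  | scale α a z =>
    simp only [Gate.val]
    obtain ⟨ha0, ha1⟩ : 0 ≤ α ∧ α ≤ 1 := hg
    refine ⟨le_max_left _ _, max_le (by linarith) ?_⟩
    nlinarith
  | copy a z => simp only [Gate.val]; constructor <;> linarith
  | add a b z => simp only [Gate.val]; constructor <;> linarith
  | sub a b z => simp only [Gate.val]; constructor <;> linarith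
  | less a b z => simp only [Gate.val]; split_ifs <;> constructor <;> linarith
  | neg a z => simp only [Gate.val]; split_ifs <;> constructor <;> linarith
  | disj a b z => simp only [Gate.val]; split_ifs <;> constructor <;> linarith
  | conj a b z => simp only [Gate.val]; split_ifs <;> constructor <;> linarith

theorem step_mem (G : GCircuit V) (ε : ℚ) (h1 : 1 / 4 ≤ ε) (h2 : ε ≤ 1 / 2) (x : V → ℚ) (v : V) :
    ε ≤ G.step ε x v ∧ G.step ε x v ≤ 1 - ε := by
  unfold GCircuit.step
  split_ifs with h
  · exact val_mem ε h1 h2 x _ (G.param_ok _ (Classical.choose_spec h).1)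
  · constructor <;> linarith

/-- A fixed point of the update map with all values in `[ε, 1-ε]` satisfies every gate. -/
theorem sat_of_fixed (G : GCircuit V) (ε : ℚ) (h1 : 1 / 4 ≤ ε) (h2 : ε ≤ 1 / 2) (x : V → ℚ)
    (hW : ∀ v, ε ≤ x v ∧ x v ≤ 1 - ε) (hfix : ∀ g ∈ G.gates, x g.out = g.val ε x) :
    ∀ g ∈ G.gates, g.Sat ε x := by
  intro g hg
  have hv := hfix g hg
  have hp := G.param_ok g hg
  cases g with
  | const α z =>
    obtain ⟨ha0, ha1⟩ : 0 ≤ α ∧ α ≤ 1 := hp
    simp only [Gate.out, Gate.val] at hv
    simp only [Gate.Sat]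
    rw [hv, abs_le]
    constructor
    · have := le_max_left ε (min α (1 - ε))
      have := le_max_right ε (min α (1 - ε))
      rcases le_total α (1 - ε) with h | h
      · rw [min_eq_left h] at *
        linarith
      · rw [min_eq_right h] at *
        linarith
    · rcases le_total α (1 - ε) with h | h
      · rw [min_eq_left h]
        rcases le_total ε α with h' | h'
        · rw [max_eq_right h']; linarith
        · rw [max_eq_left h']; linarith
      · rw [min_eq_right h]
        rw [max_eq_right (by linarith)]; linarith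
  | scale α a z =>
    obtain ⟨ha0, ha1⟩ : 0 ≤ α ∧ α ≤ 1 := hp
    simp only [Gate.out, Gate.val] at hv
    simp only [Gate.Sat]
    obtain ⟨hxa1, hxa2⟩ := hW a
    have e1 : α * ε ≤ α * x a := mul_le_mul_of_nonneg_left hxa1 ha0
    have e2 : α * x a ≤ α * (1 - ε) := mul_le_mul_of_nonneg_left hxa2 ha0
    have e3 : α * (1 - ε) ≤ 1 - ε := by nlinarith
    have e4 : 0 ≤ α * ε := by positivity
    rw [hv, abs_le]
    rcases le_total ε (α * (1 - ε) - ε) with h | h
    · rw [max_eq_right h]
      constructor
      · nlinarith
      · nlinarith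
    · rw [max_eq_left h]
      constructor <;> nlinarith
  | copy a z =>
    simp only [Gate.out, Gate.val] at hv
    simp only [Gate.Sat]
    obtain ⟨hxa1, hxa2⟩ := hW a
    rw [hv, abs_le]
    constructor <;> linarith
  | add a b z =>
    simp only [Gate.out, Gate.val] at hv
    simp only [Gate.Sat]
    obtain ⟨hxa1, hxa2⟩ := hW a
    obtain ⟨hxb1, hxb2⟩ := hW b
    rw [hv, abs_le]
    rcases le_total (x a + x b) 1 with h | h
    · rw [min_eq_left h]; constructor <;> linarith
    · rw [min_eq_right h]; constructor <;> linarith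
  | sub a b z =>
    simp only [Gate.out, Gate.val] at hv
    simp only [Gate.Sat]
    obtain ⟨hxa1, hxa2⟩ := hW a
    obtain ⟨hxb1, hxb2⟩ := hW b
    rw [hv, abs_le]
    rcases le_total (x a - x b) 0 with h | h
    · rw [max_eq_right h]; constructor <;> linarith
    · rw [max_eq_left h]; constructor <;> linarith
  | less a b z =>
    simp only [Gate.out, Gate.val] at hv
    simp only [Gate.Sat]
    rw [hv]
    split_ifs with c1 c2
    · exact ⟨fun _ => le_refl _, fun h => by linarith⟩
    · exact ⟨fun h => absurd h c1, fun _ => le_refl _⟩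
    · exact ⟨fun h => absurd h c1, fun h => absurd h c2⟩
  | neg a z =>
    simp only [Gate.out, Gate.val] at hv
    simp only [Gate.Sat]
    rw [hv]
    split_ifs with c1 c2
    · exact ⟨fun _ => le_refl _, fun h => by linarith⟩
    · exact ⟨fun h => absurd h c1, fun _ => le_refl _⟩
    · exact ⟨fun h => absurd h c1, fun h => absurd h c2⟩
  | disj a b z =>
    simp only [Gate.out, Gate.val] at hv
    simp only [Gate.Sat]
    rw [hv]
    split_ifs with c1 c2
    · exact ⟨fun _ => le_refl _, fun h => by rcases c1 with c | c <;> linarith [h.1, h.2]⟩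
    · exact ⟨fun h => absurd h c1, fun _ => le_refl _⟩
    · exact ⟨fun h => absurd h c1, fun h => absurd h c2⟩
  | conj a b z =>
    simp only [Gate.out, Gate.val] at hv
    simp only [Gate.Sat]
    rw [hv]
    split_ifs with c1 c2
    · exact ⟨fun _ => le_refl _, fun h => by rcases h with c | c <;> linarith [c1.1, c1.2]⟩
    · exact ⟨fun h => absurd h c1, fun _ => le_refl _⟩
    · exact ⟨fun h => absurd h c1, fun h => absurd h c2⟩

/-- Information order: `x` is below `y` if every value of `x` is `1/2` or agrees with `y`. -/
def InfoLe (x y : V → ℚ) : Prop := ∀ v, x v = 1 / 2 ∨ x v = y v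

omit [Fintype V] in
theorem val_mono (ε : ℚ) (h1 : 1 / 4 ≤ ε) (h2 : ε ≤ 1 / 2) (x y : V → ℚ)
    (hW : ∀ v, ε ≤ x v ∧ x v ≤ 1 - ε) (hle : InfoLe x y) (g : Gate V) :
    g.val ε x = 1 / 2 ∨ g.val ε x = g.val ε y := by
  rcases eq_or_lt_of_le h2 with h3 | h3
  · -- ε = 1/2: every value of x is 1/2 and every rule gives 1/2 or agrees
    have hx : ∀ v, x v = 1 / 2 := fun v => by
      obtain ⟨a, b⟩ := hW v
      linarith
    cases g with
    | const α z => right; rfl
    | scale α a z => right; rfl
    | copy a z => right; rfl
    | add a b z => right; rfl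
    | sub a b z => right; rfl
    | less a b z => left; simp only [Gate.val]; split_ifs <;> linarith
    | neg a z => left; simp only [Gate.val]; split_ifs <;> linarith
    | disj a b z => left; simp only [Gate.val]; split_ifs <;> linarith
    | conj a b z => left; simp only [Gate.val]; split_ifs <;> linarith
  · cases g with
    | const α z => right; rfl
    | scale α a z => right; rfl
    | copy a z => right; rfl
    | add a b z => right; rfl
    | sub a b z => right; rfl
    | less a b z =>
      obtain ⟨ha1, ha2⟩ := hW a
      obtain ⟨hb1, hb2⟩ := hW b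
      rcases hle a with ha | ha
      · left
        simp only [Gate.val]
        rw [if_neg (by linarith), if_neg (by linarith)]
      · rcases hle b with hb | hb
        · left
          simp only [Gate.val]
          rw [if_neg (by linarith), if_neg (by linarith)]
        · right
          simp only [Gate.val, ha, hb]
    | neg a z =>
      rcases hle a with ha | ha
      · left
        simp only [Gate.val]
        rw [if_neg (by linarith), if_neg (by linarith)]
      · right
        simp only [Gate.val, ha]
    | disj a b z =>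
      obtain ⟨ha1, ha2⟩ := hW a
      obtain ⟨hb1, hb2⟩ := hW b
      rcases hle a with ha | ha
      · rcases hle b with hb | hb
        · left
          simp only [Gate.val]
          rw [if_neg (by rintro (h | h) <;> linarith), if_neg (by rintro ⟨h, _⟩; linarith)]
        · by_cases hc : 1 - ε ≤ x b
          · right
            simp only [Gate.val]
            rw [if_pos (Or.inr hc), if_pos (Or.inr (hb ▸ hc))]
          · left
            simp only [Gate.val]
            rw [if_neg (by rintro (h | h) <;> [linarith; exact hc h]),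
              if_neg (by rintro ⟨h, _⟩; linarith)]
      · rcases hle b with hb | hb
        · by_cases hc : 1 - ε ≤ x a
          · right
            simp only [Gate.val]
            rw [if_pos (Or.inl hc), if_pos (Or.inl (ha ▸ hc))]
          · left
            simp only [Gate.val]
            rw [if_neg (by rintro (h | h) <;> [exact hc h; linarith]),
              if_neg (by rintro ⟨_, h⟩; linarith)]
        · right
          simp only [Gate.val, ha, hb]
    | conj a b z =>
      obtain ⟨ha1, ha2⟩ := hW a
      obtain ⟨hb1, hb2⟩ := hW b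
      rcases hle a with ha | ha
      · rcases hle b with hb | hb
        · left
          simp only [Gate.val]
          rw [if_neg (by rintro ⟨h, _⟩; linarith), if_neg (by rintro (h | h) <;> linarith)]
        · by_cases hc : x b ≤ ε
          · right
            simp only [Gate.val]
            rw [if_neg (by rintro ⟨h, _⟩; linarith), if_pos (Or.inr hc),
              if_neg (by rintro ⟨_, h⟩; rw [← hb] at h; linarith), if_pos (Or.inr (hb ▸ hc))]
          · left
            simp only [Gate.val]
            rw [if_neg (by rintro ⟨h, _⟩; linarith),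
              if_neg (by rintro (h | h) <;> [linarith; exact hc h])]
      · rcases hle b with hb | hb
        · by_cases hc : x a ≤ ε
          · right
            simp only [Gate.val]
            rw [if_neg (by rintro ⟨_, h⟩; linarith), if_pos (Or.inl hc),
              if_neg (by rintro ⟨h, _⟩; rw [← ha] at h; linarith), if_pos (Or.inl (ha ▸ hc))]
          · left
            simp only [Gate.val]
            rw [if_neg (by rintro ⟨_, h⟩; linarith),
              if_neg (by rintro (h | h) <;> [exact hc h; linarith])]
        · right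
          simp only [Gate.val, ha, hb]

theorem step_mono (G : GCircuit V) (ε : ℚ) (h1 : 1 / 4 ≤ ε) (h2 : ε ≤ 1 / 2) (x y : V → ℚ)
    (hW : ∀ v, ε ≤ x v ∧ x v ≤ 1 - ε) (hle : InfoLe x y) :
    InfoLe (G.step ε x) (G.step ε y) := by
  intro v
  unfold GCircuit.step
  split_ifs with h
  · exact val_mono ε h1 h2 x y hW hle _
  · left; rfl

/-- The number of nodes whose value differs from `1/2`. -/
noncomputable def defined (x : V → ℚ) : ℕ := (Finset.univ.filter (fun v => x v ≠ 1 / 2)).card

theorem defined_lt (x y : V → ℚ) (hle : InfoLe x y) (hne : x ≠ y) : defined x < defined y := by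
  unfold defined
  apply Finset.card_lt_card
  rw [Finset.ssubset_iff_of_subset]
  · by_contra hcon
    push Not at hcon
    apply hne
    funext v
    rcases hle v with h | h
    · by_contra hxy
      have hy : y v ≠ 1 / 2 := fun hy => hxy (h.trans hy.symm)
      have := hcon v (Finset.mem_filter.mpr ⟨Finset.mem_univ _, hy⟩)
      exact (Finset.mem_filter.mp this).2 h
    · exact h
  · intro v hv
    rw [Finset.mem_filter] at hv ⊢
    refine ⟨Finset.mem_univ _, ?_⟩
    rcases hle v with h | h
    · exact absurd h hv.2
    · rw [← h]; exact hv.2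

theorem defined_le (x : V → ℚ) : defined x ≤ Fintype.card V := by
  unfold defined
  exact Finset.card_le_univ _

theorem iterate_fixed (G : GCircuit V) (ε : ℚ) (h1 : 1 / 4 ≤ ε) (h2 : ε ≤ 1 / 2) (t : ℕ)
    (ht : Fintype.card V ≤ t) :
    G.step ε ((G.step ε)^[t] (fun _ => 1 / 2)) = (G.step ε)^[t] (fun _ => 1 / 2) := by
  set f := G.step ε with hf
  set x0 : V → ℚ := fun _ => 1 / 2 with hx0
  have hWit : ∀ s, ∀ v, ε ≤ (f^[s] x0) v ∧ (f^[s] x0) v ≤ 1 - ε := by
    intro s
    cases s with
    | zero => intro v; simp only [Function.iterate_zero, id, hx0]; constructor <;> linarith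
    | succ s =>
      intro v
      rw [Function.iterate_succ_apply']
      exact step_mem G ε h1 h2 _ v
  have hchain : ∀ s, InfoLe (f^[s] x0) (f^[s + 1] x0) := by
    intro s
    induction s with
    | zero => intro v; left; rfl
    | succ s ih =>
      rw [Function.iterate_succ_apply', Function.iterate_succ_apply']
      exact step_mono G ε h1 h2 _ _ (hWit s) ih
  have hP : ∀ s, (∃ r, r < s ∧ f^[r] x0 = f^[r + 1] x0) ∨ s ≤ defined (f^[s] x0) := by
    intro s
    induction s with
    | zero => right; exact Nat.zero_le _
    | succ s ih =>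
      rcases ih with ⟨r, hr, hreq⟩ | ih
      · left; exact ⟨r, Nat.lt_succ_of_lt hr, hreq⟩
      · by_cases heq : f^[s] x0 = f^[s + 1] x0
        · left; exact ⟨s, Nat.lt_succ_self s, heq⟩
        · right
          have := defined_lt _ _ (hchain s) heq
          omega
  obtain ⟨r, hr, hreq⟩ : ∃ r, r < Fintype.card V + 1 ∧ f^[r] x0 = f^[r + 1] x0 := by
    rcases hP (Fintype.card V + 1) with h | h
    · exact h
    · have := defined_le (f^[Fintype.card V + 1] x0)
      omega
  have hstab : ∀ s, f^[r + s] x0 = f^[r] x0 := by
    intro s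
    induction s with
    | zero => rfl
    | succ s ih =>
      rw [← Nat.add_assoc, Function.iterate_succ_apply', ih, ← Function.iterate_succ_apply' f r x0]
      exact hreq.symm
  have hrt : r ≤ t := by omega
  obtain ⟨s, rfl⟩ := Nat.exists_eq_add_of_le hrt
  rw [hstab s, ← Function.iterate_succ_apply' f r x0]
  exact hreq.symm

theorem quarter (G : GCircuit V) (ε : ℚ) (h1 : 1 / 4 ≤ ε) (h2 : ε ≤ 1 / 2) (t : ℕ)
    (ht : Fintype.card V ≤ t) :
    (∀ v, 0 ≤ ((G.step ε)^[t] (fun _ => 1 / 2)) v ∧ ((G.step ε)^[t] (fun _ => 1 / 2)) v ≤ 1) ∧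
      ∀ g ∈ G.gates, g.Sat ε ((G.step ε)^[t] (fun _ => 1 / 2)) := by
  have hfix := iterate_fixed G ε h1 h2 t ht
  set x := (G.step ε)^[t] (fun _ => 1 / 2) with hx
  have hW : ∀ v, ε ≤ x v ∧ x v ≤ 1 - ε := by
    intro v
    rw [← hfix]
    exact step_mem G ε h1 h2 x v
  refine ⟨fun v => ⟨by linarith [(hW v).1], by linarith [(hW v).2]⟩, ?_⟩
  apply sat_of_fixed G ε h1 h2 x hW
  intro g hg
  conv_lhs => rw [← hfix]
  exact step_out G ε x g hg

omit [Fintype V] in
/-- For `ε ≥ 1/2` the constant assignment `1/2` satisfies every gate. -/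
theorem half_const (ε : ℚ) (h : 1 / 2 ≤ ε) (g : Gate V) (hp : g.ParamOK) :
    g.Sat ε (fun _ => 1 / 2) := by
  cases g with
  | const α z =>
    obtain ⟨ha0, ha1⟩ : 0 ≤ α ∧ α ≤ 1 := hp
    simp only [Gate.Sat]; rw [abs_le]; constructor <;> linarith
  | scale α a z =>
    obtain ⟨ha0, ha1⟩ : 0 ≤ α ∧ α ≤ 1 := hp
    simp only [Gate.Sat]; rw [abs_le]; constructor <;> linarith
  | copy a z => simp only [Gate.Sat]; rw [abs_le]; constructor <;> linarith
  | add a b z =>
    simp only [Gate.Sat]
    rw [min_eq_right (by norm_num), abs_le]; constructor <;> linarith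
  | sub a b z =>
    simp only [Gate.Sat]
    rw [max_eq_right (by norm_num), abs_le]; constructor <;> linarith
  | less a b z => exact ⟨fun _ => by linarith, fun _ => by linarith⟩
  | neg a z => exact ⟨fun _ => by linarith, fun _ => by linarith⟩
  | disj a b z => exact ⟨fun _ => by linarith, fun _ => by linarith⟩
  | conj a b z => exact ⟨fun _ => by linarith, fun _ => by linarith⟩

end Vale.Agent.Lib.P330
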