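import Vale.Agent.Lib.P330.Defs

namespace Vale.Agent.Lib.P330

/-- The value that the local update rule gives to the output node of the gate `g`,
computed from `ε` and the current values `x` of the input nodes of `g`. -/
def Gate.val {V : Type} (ε : ℚ) (x : V → ℚ) : Gate V → ℚ
  | .const α _ => max ε (min α (1 - ε))
  | .scale α _ _ => max ε (α * (1 - ε) - ε)
  | .copy _ _ => 1 / 2
  | .add _ _ _ => 1 - ε
  | .sub _ _ _ => ε
  | .less a b _ => if x a < x b - ε then 1 - ε else if x b + ε < x a then ε else 1 / 2
  | .neg a _ => if x a ≤ ε then 1 - ε else if 1 - ε ≤ x a then ε else 1 / 2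
  | .disj a b _ =>
      if 1 - ε ≤ x a ∨ 1 - ε ≤ x b then 1 - ε else if x a ≤ ε ∧ x b ≤ ε then ε else 1 / 2
  | .conj a b _ =>
      if 1 - ε ≤ x a ∧ 1 - ε ≤ x b then 1 - ε else if x a ≤ ε ∨ x b ≤ ε then ε else 1 / 2

open Classical in
/-- One synchronous round of local updates: a node that is the output of a gate of `G` gets the
value `Gate.val` of that gate (computed from the current assignment `x`); every other node
gets `1/2`. -/
noncomputable def GCircuit.step {V : Type} [Fintype V] (G : GCircuit V) (ε : ℚ) (x : V → ℚ)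
    (v : V) : ℚ :=
  if h : ∃ g, g ∈ G.gates ∧ g.out = v then (Classical.choose h).val ε x else 1 / 2

end Vale.Agent.Lib.P330
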